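import Vale.Agent.Lib.P160.helper4.SSDefs

/-!
# P160, piece SS-3 (backup copy by helper90): sets with few descents in the lower half are rare

`bad_count`: the number of `S : Finset (Fin n)` with `128 * desc n S < n`, times `n * sqrt n`,
is at most `16384 * 2 ^ n`.  Proof: the disjoint pairs `(2 i, 2 i + 1)`, `i < n / 4`, a weighted
sum over all subsets of `range n` with weight `(1 / 2) ^ (number of pairs in the pattern in/out)`,
computed exactly by peeling the top elements, and the Markov inequality.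
-/

namespace Vale.Agent.Lib.P160.H90

open Finset Vale.Agent.Lib.P160.H4

/-- Number of `i < N` with `2 i` in `S` and `2 i + 1` not in `S`. -/
def pairCount : ℕ → Finset ℕ → ℕ
  | 0, _ => 0
  | N + 1, S => pairCount N S + if (2 * N ∈ S ∧ 2 * N + 1 ∉ S) then 1 else 0

theorem pairCount_insert (N : ℕ) (a : ℕ) (h : 2 * N ≤ a) (S : Finset ℕ) :
    pairCount N (insert a S) = pairCount N S := by
  induction N with
  | zero => rfl
  | succ N ih =>
    have h1 : 2 * N ≠ a := by omega
    have h2 : 2 * N + 1 ≠ a := by omega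
    have e1 : (2 * N ∈ insert a S) ↔ 2 * N ∈ S := by
      simp [Finset.mem_insert, h1]
    have e2 : (2 * N + 1 ∈ insert a S) ↔ 2 * N + 1 ∈ S := by
      simp [Finset.mem_insert, h2]
    simp only [pairCount, e1, e2]
    rw [ih (by omega)]

theorem pairCount_eq_card (N : ℕ) (T : Finset ℕ) :
    pairCount N T = ((range N).filter fun i => 2 * i ∈ T ∧ 2 * i + 1 ∉ T).card := by
  induction N with
  | zero => simp [pairCount]
  | succ N ih =>
    rw [pairCount, ih, Finset.range_add_one, Finset.filter_insert]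
    split_ifs with h
    · rw [Finset.card_insert_of_notMem (by simp)]
    · rfl

theorem pairCount_le_desc (n N : ℕ) (hN : 4 * N ≤ n) (S : Finset (Fin n)) :
    pairCount N (S.image Fin.val) ≤ desc n S := by
  rw [pairCount_eq_card]
  unfold desc
  refine le_trans (Finset.card_le_card ?_)
    (Finset.card_image_le (f := fun k : Fin n => k.val / 2))
  intro i hi
  rw [Finset.mem_filter, Finset.mem_range] at hi
  obtain ⟨hiN, h1, h2⟩ := hi
  rw [Finset.mem_image] at h1
  obtain ⟨k, hkS, hk⟩ := h1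
  rw [Finset.mem_image]
  refine ⟨k, ?_, by omega⟩
  rw [Finset.mem_filter]
  refine ⟨Finset.mem_univ _, by omega, hkS, ?_⟩
  intro j hj hjS
  exact h2 (Finset.mem_image.mpr ⟨j, hjS, by omega⟩)

/-- The weighted sum over all subsets of `range n`. -/
noncomputable def wsum (n N : ℕ) : ℝ :=
  ∑ S ∈ (range n).powerset, (1 / 2 : ℝ) ^ pairCount N S

theorem sum_powerset_pair (f : Finset ℕ → ℝ) (m : ℕ) :
    ∑ S ∈ (range (m + 2)).powerset, f S =
      ∑ T ∈ (range m).powerset,
        (f T + f (insert m T) + f (insert (m + 1) T) + f (insert (m + 1) (insert m T))) := by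
  have h1 : m + 1 ∉ range (m + 1) := by simp
  have h2 : m ∉ range m := by simp
  rw [show m + 2 = (m + 1) + 1 from rfl, Finset.range_add_one, Finset.sum_powerset_insert h1,
    Finset.range_add_one, Finset.sum_powerset_insert h2, Finset.sum_powerset_insert h2]
  simp only [Finset.sum_add_distrib]
  ring

theorem wsum_top (n N : ℕ) (h : 2 * N ≤ n) : wsum (n + 1) N = 2 * wsum n N := by
  unfold wsum
  have hn : n ∉ range n := by simp
  rw [Finset.range_add_one, Finset.sum_powerset_insert hn]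
  have e : ∀ S ∈ (range n).powerset,
      (1 / 2 : ℝ) ^ pairCount N (insert n S) = (1 / 2 : ℝ) ^ pairCount N S := by
    intro S _
    rw [pairCount_insert N n h S]
  rw [Finset.sum_congr rfl e]
  ring

theorem wsum_pair (N : ℕ) : wsum (2 * (N + 1)) (N + 1) = 7 / 2 * wsum (2 * N) N := by
  unfold wsum
  rw [show 2 * (N + 1) = 2 * N + 2 by ring, sum_powerset_pair, Finset.mul_sum]
  refine Finset.sum_congr rfl ?_
  intro T hT
  rw [Finset.mem_powerset] at hT
  have n0 : 2 * N ∉ T := fun hh => by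
    have := Finset.mem_range.mp (hT hh)
    omega
  have n1 : 2 * N + 1 ∉ T := fun hh => by
    have := Finset.mem_range.mp (hT hh)
    omega
  have p0 : pairCount (N + 1) T = pairCount N T := by
    simp [pairCount, n0]
  have p1 : pairCount (N + 1) (insert (2 * N) T) = pairCount N T + 1 := by
    simp [pairCount, n1, pairCount_insert N (2 * N) le_rfl T]
  have p2 : pairCount (N + 1) (insert (2 * N + 1) T) = pairCount N T := by
    simp [pairCount, n0, pairCount_insert N (2 * N + 1) (by omega) T]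
  have p3 : pairCount (N + 1) (insert (2 * N + 1) (insert (2 * N) T)) = pairCount N T := by
    simp [pairCount, pairCount_insert N (2 * N + 1) (by omega) (insert (2 * N) T),
      pairCount_insert N (2 * N) le_rfl T]
  rw [p0, p1, p2, p3, pow_succ]
  ring

theorem wsum_even (N : ℕ) : wsum (2 * N) N = (7 / 2 : ℝ) ^ N := by
  induction N with
  | zero => simp [wsum, pairCount]
  | succ N ih => rw [wsum_pair, ih, pow_succ]; ring

theorem wsum_eq (N k : ℕ) : wsum (2 * N + k) N = 2 ^ k * (7 / 2 : ℝ) ^ N := by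
  induction k with
  | zero => simp [wsum_even]
  | succ k ih =>
    rw [show 2 * N + (k + 1) = (2 * N + k) + 1 by ring, wsum_top _ _ (by omega), ih, pow_succ]
    ring

theorem num_aux (q r : ℕ) : (8 : ℝ) ^ q * 7 ^ (32 * q + r) ≤ 8 ^ (32 * q + r) := by
  have h1 : (8 : ℝ) * 7 ^ 32 ≤ 8 ^ 32 := by norm_num
  have h2 : ((8 : ℝ) * 7 ^ 32) ^ q ≤ ((8 : ℝ) ^ 32) ^ q :=
    pow_le_pow_left₀ (by positivity) h1 q
  have h3 : (7 : ℝ) ^ r ≤ 8 ^ r := pow_le_pow_left₀ (by norm_num) (by norm_num) r
  calc (8 : ℝ) ^ q * 7 ^ (32 * q + r) = ((8 : ℝ) * 7 ^ 32) ^ q * 7 ^ r := by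
        rw [mul_pow, ← pow_mul, pow_add]; ring
    _ ≤ ((8 : ℝ) ^ 32) ^ q * 8 ^ r := mul_le_mul h2 h3 (by positivity) (by positivity)
    _ = 8 ^ (32 * q + r) := by rw [← pow_mul, pow_add]

/-- Markov step: the number of subsets of `range n` with at most `q` good pairs. -/
theorem markov_count (n N q : ℕ) :
    ((((range n).powerset.filter fun T => pairCount N T ≤ q).card : ℕ) : ℝ) * (1 / 2 : ℝ) ^ q
      ≤ wsum n N := by
  unfold wsum
  calc ((((range n).powerset.filter fun T => pairCount N T ≤ q).card : ℕ) : ℝ) * (1 / 2 : ℝ) ^ q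
      = ∑ _T ∈ (range n).powerset.filter (fun T => pairCount N T ≤ q), (1 / 2 : ℝ) ^ q := by
        rw [Finset.sum_const, nsmul_eq_mul]
    _ ≤ ∑ T ∈ (range n).powerset.filter (fun T => pairCount N T ≤ q),
          (1 / 2 : ℝ) ^ pairCount N T := by
        refine Finset.sum_le_sum ?_
        intro T hT
        exact pow_le_pow_of_le_one (by norm_num) (by norm_num) (Finset.mem_filter.mp hT).2
    _ ≤ ∑ T ∈ (range n).powerset, (1 / 2 : ℝ) ^ pairCount N T := by
        refine Finset.sum_le_sum_of_subset_of_nonneg (Finset.filter_subset _ _) ?_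
        intro T _ _
        positivity

theorem bad_le (n : ℕ) :
    ((univ : Finset (Finset (Fin n))).filter fun S => 128 * desc n S < n).card ≤
      ((range n).powerset.filter fun T => pairCount (n / 4) T ≤ n / 128).card := by
  refine Finset.card_le_card_of_injOn (fun S => S.image Fin.val) ?_ ?_
  · intro S hS
    have hS' : 128 * desc n S < n := (Finset.mem_filter.mp hS).2
    have hle := pairCount_le_desc n (n / 4) (by omega) S
    have hq : pairCount (n / 4) (S.image Fin.val) ≤ n / 128 := by omega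
    refine Finset.mem_coe.mpr (Finset.mem_filter.mpr ⟨Finset.mem_powerset.mpr ?_, hq⟩)
    intro x hx
    obtain ⟨k, _, rfl⟩ := Finset.mem_image.mp hx
    exact Finset.mem_range.mpr k.isLt
  · intro S _ S' _ hSS'
    exact Finset.image_injective Fin.val_injective hSS'

theorem bad_real (n : ℕ) :
    (((univ : Finset (Finset (Fin n))).filter fun S => 128 * desc n S < n).card : ℝ) *
      4 ^ (n / 128) ≤ 2 ^ n := by
  set c := ((univ : Finset (Finset (Fin n))).filter fun S => 128 * desc n S < n).card with hc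
  set b := ((range n).powerset.filter fun T => pairCount (n / 4) T ≤ n / 128).card with hb
  have hcb : (c : ℝ) ≤ (b : ℝ) := by exact_mod_cast bad_le n
  obtain ⟨k, hk⟩ : ∃ k, n = 2 * (n / 4) + k := ⟨n - 2 * (n / 4), by omega⟩
  obtain ⟨r, hr⟩ : ∃ r, n / 4 = 32 * (n / 128) + r := ⟨n / 4 - 32 * (n / 128), by omega⟩
  have hm : (b : ℝ) * (1 / 2 : ℝ) ^ (n / 128) ≤ 2 ^ k * (7 / 2 : ℝ) ^ (n / 4) := by
    have := markov_count n (n / 4) (n / 128)
    rw [← wsum_eq (n / 4) k, ← hk]
    exact this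
  set N := n / 4 with hN
  set q := n / 128 with hq
  have hnum := num_aux q r
  rw [← hr] at hnum
  -- b ≤ 2^q * 2^k * (7/2)^N
  have hb2 : (b : ℝ) ≤ 2 ^ q * (2 ^ k * (7 / 2 : ℝ) ^ N) := by
    have h2q : (0 : ℝ) < 2 ^ q := by positivity
    have e : (b : ℝ) = 2 ^ q * ((b : ℝ) * (1 / 2 : ℝ) ^ q) := by
      rw [one_div, inv_pow]; field_simp
    rw [e]
    exact mul_le_mul_of_nonneg_left hm h2q.le
  have e7 : (7 / 2 : ℝ) ^ N = 7 ^ N / 2 ^ N := by rw [div_pow]
  have e2n : (2 : ℝ) ^ n = 2 ^ k * (2 ^ N * 2 ^ N) := by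
    rw [← pow_add, ← pow_add]; congr 1; omega
  have e8 : (8 : ℝ) ^ N = 2 ^ N * (2 ^ N * 2 ^ N) := by
    rw [show (8 : ℝ) = 2 * (2 * 2) by norm_num, mul_pow, mul_pow]
  have e84 : (8 : ℝ) ^ q = 2 ^ q * 4 ^ q := by
    rw [show (8 : ℝ) = 2 * 4 by norm_num, mul_pow]
  have h4q : (0 : ℝ) < 4 ^ q := by positivity
  have h2N : (0 : ℝ) < 2 ^ N := by positivity
  have h2k : (0 : ℝ) < 2 ^ k := by positivity
  calc (c : ℝ) * 4 ^ q ≤ (2 ^ q * (2 ^ k * (7 / 2 : ℝ) ^ N)) * 4 ^ q :=
        mul_le_mul_of_nonneg_right (hcb.trans hb2) h4q.le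
    _ = 2 ^ k * ((8 : ℝ) ^ q * 7 ^ N) / 2 ^ N := by rw [e7, e84]; field_simp
    _ ≤ 2 ^ k * (8 : ℝ) ^ N / 2 ^ N := by
        apply div_le_div_of_nonneg_right _ h2N.le
        exact mul_le_mul_of_nonneg_left hnum h2k.le
    _ = 2 ^ n := by rw [e8, e2n]; field_simp

theorem size_le (n : ℕ) : (n : ℝ) * Real.sqrt n ≤ 16384 * 4 ^ (n / 128) := by
  have h1 : n ≤ 128 * 2 ^ (n / 128) := by
    have := Nat.lt_two_pow_self (n := n / 128)
    have h2 : n < 128 * (n / 128 + 1) := by omega
    calc n ≤ 128 * (n / 128 + 1) := h2.le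
      _ ≤ 128 * 2 ^ (n / 128) := Nat.mul_le_mul_left _ (by omega)
  have h1' : (n : ℝ) ≤ 128 * 2 ^ (n / 128) := by exact_mod_cast h1
  have hsq : Real.sqrt n ≤ n := by
    rw [Real.sqrt_le_iff]
    refine ⟨Nat.cast_nonneg n, ?_⟩
    exact_mod_cast Nat.le_self_pow two_ne_zero n
  have hn0 : (0 : ℝ) ≤ n := Nat.cast_nonneg n
  calc (n : ℝ) * Real.sqrt n ≤ (n : ℝ) * n := mul_le_mul_of_nonneg_left hsq hn0
    _ ≤ (128 * 2 ^ (n / 128)) * (128 * 2 ^ (n / 128)) := mul_le_mul h1' h1' hn0 (by positivity)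
    _ = 16384 * 4 ^ (n / 128) := by
        rw [show (4 : ℝ) = 2 * 2 by norm_num, mul_pow]; ring

/-- Piece SS-3 of the subset sum bound: sets with few descents in the lower half are rare. -/
theorem bad_count : ∃ C : ℝ, 0 < C ∧ ∀ n : ℕ,
    (((univ : Finset (Finset (Fin n))).filter fun S => 128 * desc n S < n).card : ℝ) *
      ((n : ℝ) * Real.sqrt n) ≤ C * 2 ^ n := by
  refine ⟨16384, by norm_num, ?_⟩
  intro n
  have h1 := bad_real n
  have h2 := size_le n
  have hc0 : (0 : ℝ) ≤
      (((univ : Finset (Finset (Fin n))).filter fun S => 128 * desc n S < n).card : ℝ) :=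
    Nat.cast_nonneg _
  calc (((univ : Finset (Finset (Fin n))).filter fun S => 128 * desc n S < n).card : ℝ) *
        ((n : ℝ) * Real.sqrt n)
      ≤ (((univ : Finset (Finset (Fin n))).filter fun S => 128 * desc n S < n).card : ℝ) *
        (16384 * 4 ^ (n / 128)) := mul_le_mul_of_nonneg_left h2 hc0
    _ = 16384 * ((((univ : Finset (Finset (Fin n))).filter fun S => 128 * desc n S < n).card : ℝ) *
        4 ^ (n / 128)) := by ring
    _ ≤ 16384 * 2 ^ n := mul_le_mul_of_nonneg_left h1 (by norm_num)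

end Vale.Agent.Lib.P160.H90
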